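import Vale.Agent.P062W.Sound

/-!
# The first pattern, and reading off a pattern from the table
-/

namespace Vale.Agent.P062W

open Vale.Agent.P062

/-- Snaky itself. -/
def startPat : ℕ := 0x18000000000000000f00000000000000000000000000000000000000000000000000000000000000000000000000000000000000000000000000000000000000000000000000000000000000000000000000000000000000000000000000000000000000000000000000000000000000000000000000000000000000000000000000000000000000000000000000000000000000000000000000000000000000000000000000000000000000000000000000000000000000000000000000000000000000000000000000000000000000000000000000000000000000000000000000000000000000000000000000000000000000000000000000000000000000000000000000000000000000000000000000000000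

theorem start_ok : PatOK startPat := by
  refine Or.inl ⟨snaky, ⟨false, false, false, 0, ?_⟩, ?_⟩
  · decide
  · have h : ∀ c ∈ snaky, c ∈ cs 0 startPat := by
      intro c hc
      simp only [snaky, Finset.mem_insert, Finset.mem_singleton] at hc
      rcases hc with rfl | rfl | rfl | rfl | rfl | rfl
      · exact cel_mem_cs (p := (0, 0)).2 ⟨by decide +kernel, by norm_num, by norm_num⟩
      · exact cel_mem_cs (p := (1, 0)).2 ⟨by decide +kernel, by norm_num, by norm_num⟩
      · exact cel_mem_cs (p := (2, 0)).2 ⟨by decide +kernel, by norm_num, by norm_num⟩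
      · exact cel_mem_cs (p := (3, 0)).2 ⟨by decide +kernel, by norm_num, by norm_num⟩
      · exact cel_mem_cs (p := (3, 1)).2 ⟨by decide +kernel, by norm_num, by norm_num⟩
      · exact cel_mem_cs (p := (4, 1)).2 ⟨by decide +kernel, by norm_num, by norm_num⟩
    exact h

theorem cs_congr {v w : ℕ} (e : Nat.shiftRight v 64 = Nat.shiftRight w 64) (h : ℕ) :
    cs h v = cs h w := by
  ext c
  rw [mem_cs, mem_cs]
  refine exists_congr fun p => and_congr_left fun _ => ?_
  have e1 : v.testBit (ix h p.1 p.2) = w.testBit (ix h p.1 p.2) := by
    have h1 := congrArg (fun n => Nat.testBit n (ix h p.1 p.2 - 64)) e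
    simp only [tb_shr] at h1
    have h2 := ix_ge h p.1 p.2
    rwa [show 64 + (ix h p.1 p.2 - 64) = ix h p.1 p.2 by omega] at h1
  unfold Has
  rw [e1]

theorem PatOK.congr {v w : ℕ} (e : Nat.shiftRight v 64 = Nat.shiftRight w 64) (h : PatOK v) :
    PatOK w := by
  unfold PatOK at h ⊢
  rwa [← cs_congr e 0, ← cs_congr e 1]

theorem get_sound {t : Tr} (ht : t.All PatOK) {i v : ℕ} {b : Bool}
    (hv : Nat.beq (Nat.shiftRight v 64) 0 = false)
    (h : cond (Nat.beq (Nat.shiftRight (Tr.get t i) 64) (Nat.shiftRight v 64)) b false = true) :
    PatOK v ∧ b = true := by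
  cases hb : Nat.beq (Nat.shiftRight (Tr.get t i) 64) (Nat.shiftRight v 64) with
  | false => rw [hb] at h; exact absurd h (by simp)
  | true =>
    rw [hb, cond_true] at h
    have e := Nat.eq_of_beq_eq_true hb
    refine ⟨?_, h⟩
    rcases Tr.get_all ht i with h0 | h0
    · rw [h0] at e
      rw [← e] at hv
      exact absurd hv (by decide)
    · exact h0.congr e

end Vale.Agent.P062W
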